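import Mathlib

/-!
# P318, g(n) ≥ exp(c loglog n/(logloglog n)^2): common definitions (frozen)

A mod-2 measure on a finite type `X` is a function `X → ZMod 2`.
-/

open Finset

namespace Vale.Agent.P318.H937

/-- pairing of a mod-2 measure with a function -/
def pair {X : Type} [Fintype X] (μ v : X → ZMod 2) : ZMod 2 := ∑ x, μ x * v x

/-- push-forward of a mod-2 measure -/
def push {X Y : Type} [Fintype X] [DecidableEq Y] (f : X → Y) (μ : X → ZMod 2) : Y → ZMod 2 :=
  fun y => ∑ x with f x = y, μ x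

/-- size of the support of a mod-2 measure -/
def sz {X : Type} [Fintype X] (μ : X → ZMod 2) : ℕ := (univ.filter fun x => μ x ≠ 0).card

/-! ### Reed-Muller spaces and the product test -/

/-- parameters of an affine function: linear part and constant -/
abbrev AffT (Y : Type) [AddCommGroup Y] [Module (ZMod 2) Y] : Type :=
  Module.Dual (ZMod 2) Y × ZMod 2

variable {Y : Type} [AddCommGroup Y] [Module (ZMod 2) Y]

/-- value of an affine function -/
def affEval (a : AffT Y) (x : Y) : ZMod 2 := a.1 x + a.2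

/-- product of `s` affine functions -/
def prodAff {s : ℕ} (a : Fin s → AffT Y) (x : Y) : ZMod 2 := ∏ i, affEval (a i) x

/-- functions of degree at most `s` -/
def RM (Y : Type) [AddCommGroup Y] [Module (ZMod 2) Y] (s : ℕ) : Submodule (ZMod 2) (Y → ZMod 2) :=
  Submodule.span (ZMod 2) (Set.range (prodAff (Y := Y) (s := s)))

/-- two mod-2 measures agree on all functions of degree at most `s` -/
def RMEq [Fintype Y] (s : ℕ) (B U : Y → ZMod 2) : Prop := ∀ v ∈ RM Y s, pair B v = pair U v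

/-- energy of a mod-2 measure: probability that a random product of `s` affine functions
pairs to one -/
noncomputable def energyRM [Fintype Y] (s : ℕ) (B : Y → ZMod 2) : ℝ :=
  (Nat.card {a : Fin s → AffT Y // pair B (prodAff a) = 1} : ℝ) / (Nat.card (Fin s → AffT Y) : ℝ)

/-- functions on `X` that are pull-backs of functions of degree at most `s` under `f : X → Y` -/
def RMpull {X : Type} (f : X → Y) (s : ℕ) : Submodule (ZMod 2) (X → ZMod 2) :=
  (RM Y s).map (LinearMap.funLeft (ZMod 2) (ZMod 2) f)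

/-! ### Losslessness -/

/-- the family `T c`, `c ∈ S`, loses at most a fraction `e` of the elements of sets of size at
most `W` -/
def Lossless {Sd X X' : Type} [DecidableEq X'] (S : Finset Sd) (T : Sd → X → X') (W : ℕ)
    (e : ℝ) : Prop :=
  ∀ U : Finset X, U.card ≤ W → (1 - e) * S.card * U.card ≤ ∑ c ∈ S, ((U.image (T c)).card : ℝ)

/-- any `n` seeds of `S` determine the element -/
def InjSeeds {Sd X X' : Type} (S : Finset Sd) (T : Sd → X → X') (n : ℕ) : Prop :=
  ∀ Z ⊆ S, n ≤ Z.card → ∀ u u', (∀ z ∈ Z, T z u = T z u') → u = u'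

/-- extension property of the pair `(be, ga)` -/
def ExtSeeds {Sd X : Type} (SB SC : Finset Sd) (be ga : Sd → X → X) (θ : ℝ) : Prop :=
  ∀ Z ⊆ SC, ∀ p : Sd → X, ∀ GB ⊆ SB, θ * SB.card < (GB.card : ℝ) →
    (∀ b ∈ GB, ∃ q, ∀ z ∈ Z, ga z q = be b (p z)) → ∃ u, ∀ z ∈ Z, ga z u = p z

/-! ### Node systems -/

/-- A system of linear operators indexed by the nodes of a forest (children have smaller index
than parents); operators at incomparable nodes commute. -/
structure NodeSys (X : Type) [AddCommGroup X] [Module (ZMod 2) X] (M : ℕ) (Sd : Type) where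
  /-- strict ancestors -/
  anc : Fin M → Finset (Fin M)
  anc_gt : ∀ v w, w ∈ anc v → v < w
  anc_trans : ∀ v w u, w ∈ anc v → u ∈ anc w → u ∈ anc v
  /-- forest: the ancestors of a node form a chain -/
  anc_chain : ∀ v w u, w ∈ anc v → u ∈ anc v → w = u ∨ w ∈ anc u ∨ u ∈ anc w
  /-- the operator of node `v` with seed `a` -/
  op : Fin M → Sd → X →ₗ[ZMod 2] X
  comm : ∀ v w, v ≠ w → v ∉ anc w → w ∉ anc v → ∀ a b x, op v a (op w b x) = op w b (op v a x)

namespace NodeSys

variable {X : Type} [AddCommGroup X] [Module (ZMod 2) X] {M : ℕ} {Sd : Type}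

/-- up-closed sets of nodes -/
def Up (N : NodeSys X M Sd) (R : Finset (Fin M)) : Prop := ∀ v ∈ R, N.anc v ⊆ R

/-- minimal (lowest) nodes of a set of nodes -/
def minl (N : NodeSys X M Sd) (R : Finset (Fin M)) : Finset (Fin M) :=
  R.filter fun v => ∀ w ∈ R, v ∉ N.anc w

/-- composition of the operators of the nodes outside `R`, small index first -/
def view (N : NodeSys X M Sd) (R : Finset (Fin M)) (y : Fin M → Sd) : X →ₗ[ZMod 2] X :=
  (List.finRange M).foldl (fun f v => if v ∈ R then f else (N.op v (y v)).comp f) LinearMap.id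

/-- quantitative properties of a node system: `m'` = log of the set sizes, `n` = number of seeds
that determine an element, `dT` = bound for the dimension of the two-path views -/
structure Good [Fintype X] [DecidableEq X] (N : NodeSys X M Sd) (n m' dT : ℕ) : Prop where
  lossless : ∀ (v : Fin M) (S : Finset Sd) (U : Finset X), U.card ≤ 2 ^ m' →
    ((S.card : ℝ) - (2 * m' + 1) * (n * m')) * U.card ≤ ∑ a ∈ S, ((U.image (N.op v a)).card : ℝ)
  lossless2 : ∀ (v : Fin M) (S : Finset Sd) (U : Finset (X × X)), U.card ≤ 2 ^ m' →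
    ((S.card : ℝ) - (2 * m' + 1) * (n * m')) * U.card ≤
      ∑ a ∈ S, ((U.image (Prod.map (N.op v a) (N.op v a))).card : ℝ)
  kill : ∀ (v : Fin M) (x : X), x ≠ 0 → ∀ S : Finset Sd, (∀ a ∈ S, N.op v a x = 0) → S.card < n
  ext : ∀ v w : Fin M, v ≠ w → v ∉ N.anc w → w ∉ N.anc v →
    ∀ (Z : Finset Sd) (p : Sd → X) (GB : Finset Sd), n ≤ GB.card →
    (∀ b ∈ GB, ∃ q, ∀ z ∈ Z, N.op v z q = N.op w b (p z)) → ∃ u, ∀ z ∈ Z, N.op v z u = p z
  dim : ∀ R, N.Up R → (N.minl R).card ≤ 2 → ∀ y,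
    Module.finrank (ZMod 2) (LinearMap.range (N.view R y)) ≤ dT

end NodeSys

/-! ### Grids and the code.  Seeds are pairs (block, position): `Sd = Fin Bn × Fin Dn`.
A grid is a choice of a block at every node. -/

variable {X : Type} [AddCommGroup X] [Module (ZMod 2) X] {M Bn Dn : ℕ}

/-- views: an up-closed set with at most two minimal nodes and seeds in a grid of the family -/
def IsView (N : NodeSys X M (Fin Bn × Fin Dn)) (𝒢 : Finset (Fin M → Fin Bn))
    (T : Finset (Fin M) × (Fin M → Fin Bn × Fin Dn)) : Prop :=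
  N.Up T.1 ∧ (N.minl T.1).card ≤ 2 ∧ (fun v => (T.2 v).1) ∈ 𝒢

/-- the grid family is connected by changes at one node -/
def GridConn (𝒢 : Finset (Fin M → Fin Bn)) : Prop :=
  ∀ g ∈ 𝒢, ∀ g' ∈ 𝒢, Relation.ReflTransGen
    (fun a b => b ∈ 𝒢 ∧ ∃ v, ∀ w, w ≠ v → a w = b w) g g'

/-- a pair of views -/
def PairT (N : NodeSys X M (Fin Bn × Fin Dn)) (𝒢 : Finset (Fin M → Fin Bn)) : Type :=
  {T : Finset (Fin M) × (Fin M → Fin Bn × Fin Dn) // IsView N 𝒢 T} ×
  {T : Finset (Fin M) × (Fin M → Fin Bn × Fin Dn) // IsView N 𝒢 T}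

/-- the map to the product of two views -/
def pview (N : NodeSys X M (Fin Bn × Fin Dn)) (𝒢 : Finset (Fin M → Fin Bn)) (T : PairT N 𝒢)
    (x : X) : X × X := (N.view T.1.1.1 T.1.1.2 x, N.view T.2.1.1 T.2.1.2 x)

/-- the code -/
def codeV (N : NodeSys X M (Fin Bn × Fin Dn)) (𝒢 : Finset (Fin M → Fin Bn)) (s : ℕ) :
    Submodule (ZMod 2) (X → ZMod 2) := ⨆ T : PairT N 𝒢, RMpull (pview N 𝒢 T) s

/-- the small code (single views) -/
def codeV1 (N : NodeSys X M (Fin Bn × Fin Dn)) (𝒢 : Finset (Fin M → Fin Bn)) (s : ℕ) :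
    Submodule (ZMod 2) (X → ZMod 2) :=
  ⨆ T : {T : Finset (Fin M) × (Fin M → Fin Bn × Fin Dn) // IsView N 𝒢 T},
    RMpull (N.view T.1.1 T.1.2) s

/-- the test: index type and function -/
def TestT (N : NodeSys X M (Fin Bn × Fin Dn)) (𝒢 : Finset (Fin M → Fin Bn)) (s : ℕ) : Type :=
  PairT N 𝒢 × (Fin s → AffT (X × X))

/-- the test function -/
def testF (N : NodeSys X M (Fin Bn × Fin Dn)) (𝒢 : Finset (Fin M → Fin Bn)) (s : ℕ)
    (γ : TestT N 𝒢 s) (x : X) : ZMod 2 := prodAff γ.2 (pview N 𝒢 γ.1 x)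

/-! ### The interface between the code and the analysis -/

/-- `lam g B` = probability that the test `g γ` pairs to one with `B` -/
noncomputable def lam {X Γ : Type} [Fintype X] (g : Γ → X → ZMod 2) (B : X → ZMod 2) : ℝ :=
  (Nat.card {γ : Γ // pair B (g γ) = 1} : ℝ) / (Nat.card Γ : ℝ)

/-- A good code: `κ` = dimension of the point space, `s` = log of the inverse noise,
`d` = energy bound (in units `2^-s`), `k` = independence, `D` = dimension, `pc` = collision
probability of the hash family. -/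
structure GoodCode (X : Type) [AddCommGroup X] [Module (ZMod 2) X] [Fintype X] [DecidableEq X]
    (κ s d k D : ℕ) (pc : ℝ) (V V1 : Submodule (ZMod 2) (X → ZMod 2))
    (Γ : Type) (g : Γ → X → ZMod 2) : Prop where
  card : Fintype.card X = 2 ^ κ
  fin : Finite Γ
  ne : Nonempty Γ
  trans : ∀ v ∈ V, ∀ x : X, (fun p => v (p + x)) ∈ V
  one : (fun _ => (1 : ZMod 2)) ∈ V
  test : ∀ γ, g γ ∈ V
  dens : ∀ x : X, (Nat.card {γ : Γ // g γ x = 1} : ℝ) = (1 / 2) ^ s * (Nat.card Γ : ℝ)
  exact : ∀ B : X → ZMod 2, lam g B * 2 ^ s ≤ d →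
    ∃ U : X → ZMod 2, (∀ v ∈ V, pair B v = pair U v) ∧ (9 / 10 : ℝ) * sz U ≤ lam g B * 2 ^ s
  le : V1 ≤ V
  indep : ∀ U : X → ZMod 2, U ≠ 0 → sz U ≤ k → ∃ v ∈ V1, pair U v = 1
  hash : ∃ (Θ : Type) (_ : Finite Θ) (_ : Nonempty Θ) (t : ℕ) (h : Θ → X → Fin t),
    (∀ x x' : X, x ≠ x' → (Nat.card {θ : Θ // h θ x = h θ x'} : ℝ) ≤ pc * (Nat.card Θ : ℝ)) ∧
    ∀ (θ : Θ) (z : Fin t → X → ZMod 2), (∀ j, z j ∈ V1) → (fun x => z (h θ x) x) ∈ V
  deg : ∀ v ∈ V, v ≠ 0 → 2 ^ κ ≤ 2 ^ s * sz v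
  dim : Module.finrank (ZMod 2) V ≤ D

end Vale.Agent.P318.H937
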