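import Vale.Agent.P318.H937.Defs
import Vale.Agent.P318.H867.Defs

/-!
# P318, g(n) ≥ exp(c loglog n/(logloglog n)^2): frozen specifications (Props)

Section numbers refer to PROOF.md (branch helper937).
-/

open Finset

namespace Vale.Agent.P318.H937

/-! ## Part I: the code -/

/-- (1.1) -/
def SpecMD : Prop := ∀ (Y : Type) [AddCommGroup Y] [Module (ZMod 2) Y] [Fintype Y]
  (s : ℕ) (U : Y → ZMod 2), U ≠ 0 → RMEq s U 0 → 2 ^ (s + 1) ≤ sz U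

/-- (1.3) -/
def SpecRMlow : Prop := ∀ (Y : Type) [AddCommGroup Y] [Module (ZMod 2) Y] [Fintype Y]
  (s : ℕ) (U : Y → ZMod 2),
  (sz U : ℝ) * (1 / 2) ^ s * (1 - (sz U : ℝ) * (1 / 2) ^ s) ≤ energyRM s U

/-- (1.4) -/
def SpecRM : Prop := ∀ (Y : Type) [AddCommGroup Y] [Module (ZMod 2) Y] [Fintype Y]
  (s : ℕ) (B : Y → ZMod 2), 8 ≤ s → energyRM s B ≤ (1 / 2) ^ 10 →
  ∃ U : Y → ZMod 2, RMEq s B U ∧ (sz U : ℝ) ≤ 4 / 3 * 2 ^ s * energyRM s B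

/-- (2.1), (2.2) -/
def SpecGUV : Prop := ∀ e n m' : ℕ, 1 ≤ e → 2 ≤ n → 1 ≤ m' →
  ∃ E : Fin (2 ^ e) → ((Fin (n * e) → ZMod 2) →ₗ[ZMod 2] (Fin (m' * e) → ZMod 2)),
    (∀ (S : Finset (Fin (2 ^ e))) (U : Finset (Fin (n * e) → ZMod 2)), U.card ≤ 2 ^ m' →
      ((S.card : ℝ) - n * m') * U.card ≤ ∑ y ∈ S, ((U.image (E y)).card : ℝ)) ∧
    ∀ f : Fin (n * e) → ZMod 2, f ≠ 0 →
      ∀ S : Finset (Fin (2 ^ e)), (∀ a ∈ S, E a f = 0) → S.card < n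

/-- (3.3) -/
def SpecVEC : Prop := ∀ (La A : Type) [AddCommGroup La] [Module (ZMod 2) La] [Fintype La]
  [DecidableEq La] [AddCommGroup A] [Module (ZMod 2) A] [DecidableEq A] (Sd : Type)
  (S : Finset Sd) (E : Sd → La →ₗ[ZMod 2] A) (m' : ℕ) (θ : ℝ), 0 ≤ θ →
  (∀ U : Finset La, U.card ≤ 2 ^ m' →
    ((S.card : ℝ) - θ) * U.card ≤ ∑ y ∈ S, ((U.image (E y)).card : ℝ)) →
  ∀ (J : Type) [Fintype J] [DecidableEq J] (U : Finset (J → La)), U.card ≤ 2 ^ m' →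
    ((S.card : ℝ) - (2 * m' + 1) * θ) * U.card ≤
      ∑ y ∈ S, ((U.image fun f j => E y (f j)).card : ℝ)

/-- Lemma 5 (gluing in three coordinates, all spaces equal to `X`) -/
def SpecGLUE : Prop := ∀ (X : Type) [Fintype X] [DecidableEq X] (Sd : Type) [DecidableEq Sd]
  (SA SB SC : Finset Sd) (al be ga : Sd → X → X) (n W W0 : ℕ) (e : ℝ),
  SA.Nonempty → SB.Nonempty → SC.Nonempty →
  (∀ a b x, al a (be b x) = be b (al a x)) →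
  (∀ a c x, al a (ga c x) = ga c (al a x)) →
  (∀ b c x, be b (ga c x) = ga c (be b x)) →
  0 ≤ e → (250 * (n + 1) + 2) * e < 1 →
  Lossless SA al W0 e → Lossless SB be W0 e → Lossless SC ga W0 e →
  InjSeeds SC ga n → n ≤ SC.card → ExtSeeds SB SC be ga (2 * e) → 2 * W + 1 ≤ W0 →
  ∀ P Q R : Sd → X → ZMod 2,
    (∀ c ∈ SC, sz (P c) ≤ W) → (∀ b ∈ SB, sz (Q b) ≤ W) → (∀ a ∈ SA, sz (R a) ≤ W) →
    (∀ b ∈ SB, ∀ c ∈ SC, push (be b) (P c) = push (ga c) (Q b)) →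
    (∀ a ∈ SA, ∀ c ∈ SC, push (al a) (P c) = push (ga c) (R a)) →
    (∀ a ∈ SA, ∀ b ∈ SB, push (al a) (Q b) = push (be b) (R a)) →
    ∃ U : X → ZMod 2, (1 - 2 * e) * sz U ≤ W ∧
      (∀ c ∈ SC, push (ga c) U = P c) ∧ (∀ b ∈ SB, push (be b) U = Q b) ∧
      (∀ a ∈ SA, push (al a) U = R a)

/-- (4.4), (4.5) iterated over all nodes outside `R`: most of a small measure survives in a
random view of a grid -/
def SpecLOW : Prop := ∀ (X : Type) [AddCommGroup X] [Module (ZMod 2) X] [Fintype X]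
  [DecidableEq X] (M n m' dT Dn : ℕ) (Sd : Type) [Fintype Sd] [DecidableEq Sd]
  (N : NodeSys X M Sd), N.Good n m' dT → ∀ (S : Fin M → Finset Sd), (∀ v, (S v).card = Dn) →
  0 < Dn → ∀ (R : Finset (Fin M)) (D : X → ZMod 2), sz D ≤ 2 ^ m' →
  (1 - 2 * M * ((2 * m' + 1) * (n * m')) / Dn) * (Dn : ℝ) ^ M * sz D ≤
    ∑ y ∈ Fintype.piFinset S, (sz (push (N.view R y) D) : ℝ)

/-- the same on pairs -/
def SpecLOW2 : Prop := ∀ (X : Type) [AddCommGroup X] [Module (ZMod 2) X] [Fintype X]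
  [DecidableEq X] (M n m' dT Dn : ℕ) (Sd : Type) [Fintype Sd] [DecidableEq Sd]
  (N : NodeSys X M Sd), N.Good n m' dT → ∀ (S : Fin M → Finset Sd), (∀ v, (S v).card = Dn) →
  0 < Dn → ∀ (R : Finset (Fin M)) (U : Finset (X × X)), U.card ≤ 2 ^ m' →
  (1 - M * ((2 * m' + 1) * (n * m')) / Dn) * (Dn : ℝ) ^ M * U.card ≤
    ∑ y ∈ Fintype.piFinset S, ((U.image (Prod.map (N.view R y) (N.view R y))).card : ℝ)

/-- number of seeds killing an element in the fully compressed view: at most a fraction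
`M n / |Sd|` -/
def SpecKILL : Prop := ∀ (X : Type) [AddCommGroup X] [Module (ZMod 2) X] [Fintype X]
  [DecidableEq X] (M n m' dT : ℕ) (Sd : Type) [Fintype Sd] [DecidableEq Sd]
  (N : NodeSys X M Sd), N.Good n m' dT → ∀ (R : Finset (Fin M)) (x : X), x ≠ 0 →
  ((univ.filter fun y : Fin M → Sd => N.view R y x = 0).card : ℝ) * Fintype.card Sd ≤
    M * n * (Fintype.card Sd : ℝ) ^ M

/-- Theorem 6 (one grid) -/
def SpecNODE : Prop := ∀ (X : Type) [AddCommGroup X] [Module (ZMod 2) X] [Fintype X]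
  [DecidableEq X] (M n m' dT Dn W : ℕ) (Sd : Type) [Fintype Sd] [DecidableEq Sd]
  (N : NodeSys X M Sd), N.Good n m' dT → ∀ (S : Fin M → Finset Sd), (∀ v, (S v).card = Dn) →
  300 * (n + 1) * (M + 1) * ((2 * m' + 1) * (n * m')) < Dn → n ≤ Dn → 1 ≤ m' → 8 * W ≤ 2 ^ m' →
  ∀ μ : Finset (Fin M) → (Fin M → Sd) → X → ZMod 2,
    (∀ R y, N.Up R → (N.minl R).card ≤ 2 → (∀ v, y v ∈ S v) → sz (μ R y) ≤ W) →
    (∀ R y y', N.Up R → (N.minl R).card ≤ 2 → (∀ v, y v ∈ S v) → (∀ v, y' v ∈ S v) →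
      (∀ v, v ∉ R → y v = y' v) → μ R y = μ R y') →
    (∀ R y v, N.Up R → (N.minl R).card ≤ 2 → (∀ v, y v ∈ S v) → v ∈ N.minl R →
      push (N.op v (y v)) (μ R y) = μ (R.erase v) y) →
    ∃ U : X → ZMod 2, sz U ≤ 2 * W ∧
      ∀ R y, N.Up R → (N.minl R).card ≤ 2 → (∀ v, y v ∈ S v) → push (N.view R y) U = μ R y

/-- section 7 -/
def SpecTREE : Prop := ∀ e m' n Lv : ℕ, 1 ≤ e → 1 ≤ m' → 2 ≤ n → 1 ≤ Lv → m' ^ 2 * e ≤ n →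
  ∃ N : NodeSys ((Fin (2 ^ Lv) → Fin (m' * e)) → ZMod 2) (2 ^ Lv - 1) (Fin (2 ^ e)),
    N.Good n m' ((m' * e) ^ (2 * Lv + 2))

/-- section 8: all grids of a connected family -/
def SpecGLOBAL : Prop := ∀ (X : Type) [AddCommGroup X] [Module (ZMod 2) X] [Fintype X]
  [DecidableEq X] (M n m' dT Bn Dn W : ℕ)
  (N : NodeSys X M (Fin Bn × Fin Dn)), N.Good n m' dT →
  300 * (n + 1) * (M + 1) * ((2 * m' + 1) * (n * m')) < Dn → n ≤ Dn → 1 ≤ m' → 8 * W ≤ 2 ^ m' →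
  ∀ 𝒢 : Finset (Fin M → Fin Bn), 𝒢.Nonempty → GridConn 𝒢 →
  ∀ μ : Finset (Fin M) × (Fin M → Fin Bn × Fin Dn) → X → ZMod 2,
    (∀ T, IsView N 𝒢 T → sz (μ T) ≤ W) →
    (∀ R y y', IsView N 𝒢 (R, y) → IsView N 𝒢 (R, y') → (∀ v, v ∉ R → y v = y' v) →
      μ (R, y) = μ (R, y')) →
    (∀ R y v, IsView N 𝒢 (R, y) → v ∈ N.minl R →
      push (N.op v (y v)) (μ (R, y)) = μ (R.erase v, y)) →
    ∃ U : X → ZMod 2, sz U ≤ 2 * W ∧ ∀ T, IsView N 𝒢 T → push (N.view T.1 T.2) U = μ T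

/-- section 8: the random grids -/
def SpecSAMPLE : Prop := ∀ (X : Type) [AddCommGroup X] [Module (ZMod 2) X] [Fintype X]
  [DecidableEq X] (M n m' dT Bn Dn κ N0 : ℕ)
  (N : NodeSys X M (Fin Bn × Fin Dn)), N.Good n m' dT → Fintype.card X = 2 ^ κ →
  0 < M → 0 < Bn → 0 < Dn → 0 < N0 → κ * (Bn * Dn) < 2 * (M * n) * N0 →
  ∃ (G0 : Fin N0 → Fin M → Fin Bn) (𝒢 : Finset (Fin M → Fin Bn)), (∀ i, G0 i ∈ 𝒢) ∧
    GridConn 𝒢 ∧ 𝒢.card ≤ N0 * (M + 1) + 1 ∧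
    ∀ x : X, x ≠ 0 →
      ((univ.filter fun ij : Fin N0 × (Fin M → Fin Dn) =>
        N.view ∅ (fun v => (G0 ij.1 v, ij.2 v)) x = 0).card : ℝ) * (Bn * Dn) ≤
      4 * (M * n) * (N0 * (Dn : ℝ) ^ M)

/-- section 9: exactness of the code with pair views -/
def SpecEXACT : Prop := ∀ (X : Type) [AddCommGroup X] [Module (ZMod 2) X] [Fintype X]
  [DecidableEq X] (M n m' dT Bn Dn s d : ℕ)
  (N : NodeSys X M (Fin Bn × Fin Dn)), N.Good n m' dT →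
  300 * (n + 1) * (M + 1) * ((2 * m' + 1) * (n * m')) < Dn → n ≤ Dn → 1 ≤ m' →
  ∀ 𝒢 : Finset (Fin M → Fin Bn), 𝒢.Nonempty → GridConn 𝒢 → 8 ≤ s →
  1024 * (Nat.card (PairT N 𝒢) * d) ≤ 2 ^ s → 1024 * (Nat.card (PairT N 𝒢) * d) ≤ 2 ^ m' →
  ∀ B : X → ZMod 2, lam (testF N 𝒢 s) B * 2 ^ s ≤ d →
    ∃ U : X → ZMod 2, (∀ v ∈ codeV N 𝒢 s, pair B v = pair U v) ∧
      (9 / 10 : ℝ) * sz U ≤ lam (testF N 𝒢 s) B * 2 ^ s

/-- section 9: the other properties of the code -/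
def SpecCODEPROPS : Prop := ∀ (X : Type) [AddCommGroup X] [Module (ZMod 2) X] [Fintype X]
  [DecidableEq X] (M n m' dT Bn Dn s s1 κ k : ℕ)
  (N : NodeSys X M (Fin Bn × Fin Dn)), N.Good n m' dT → Fintype.card X = 2 ^ κ →
  300 * (n + 1) * (M + 1) * ((2 * m' + 1) * (n * m')) < Dn → n ≤ Dn →
  ∀ 𝒢 : Finset (Fin M → Fin Bn), 𝒢.Nonempty → 2 * s1 ≤ s → k ≤ 2 ^ m' → k ≤ 2 ^ s1 →
    (∀ v ∈ codeV N 𝒢 s, ∀ x : X, (fun p => v (p + x)) ∈ codeV N 𝒢 s) ∧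
    (fun _ => (1 : ZMod 2)) ∈ codeV N 𝒢 s ∧
    (∀ γ, testF N 𝒢 s γ ∈ codeV N 𝒢 s) ∧
    (∀ x : X, (Nat.card {γ : TestT N 𝒢 s // testF N 𝒢 s γ x = 1} : ℝ) =
      (1 / 2) ^ s * (Nat.card (TestT N 𝒢 s) : ℝ)) ∧
    codeV1 N 𝒢 s1 ≤ codeV N 𝒢 s ∧
    (∀ U : X → ZMod 2, U ≠ 0 → sz U ≤ k → ∃ v ∈ codeV1 N 𝒢 s1, pair U v = 1) ∧
    (∀ v ∈ codeV N 𝒢 s, v ≠ 0 → 2 ^ κ ≤ 2 ^ s * sz v) ∧
    Module.finrank (ZMod 2) (codeV N 𝒢 s) ≤ Nat.card (PairT N 𝒢) * (2 * dT + 1) ^ s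

/-- section 9: the hash family -/
def SpecHASH : Prop := ∀ (X : Type) [AddCommGroup X] [Module (ZMod 2) X] [Fintype X]
  [DecidableEq X] (M n m' dT Bn Dn s s1 l N0 : ℕ)
  (N : NodeSys X M (Fin Bn × Fin Dn)), N.Good n m' dT → 0 < Dn → 0 < N0 →
  ∀ (𝒢 : Finset (Fin M → Fin Bn)) (G0 : Fin N0 → Fin M → Fin Bn), (∀ i, G0 i ∈ 𝒢) →
  ∀ p : ℝ, (∀ x : X, x ≠ 0 →
      ((univ.filter fun ij : Fin N0 × (Fin M → Fin Dn) =>
        N.view ∅ (fun v => (G0 ij.1 v, ij.2 v)) x = 0).card : ℝ) ≤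
      p * (N0 * (Dn : ℝ) ^ M)) → 2 * s1 ≤ s → l ≤ s1 →
  ∃ (Θ : Type) (_ : Finite Θ) (_ : Nonempty Θ) (t : ℕ) (h : Θ → X → Fin t),
    (∀ x x' : X, x ≠ x' →
      (Nat.card {θ : Θ // h θ x = h θ x'} : ℝ) ≤ (p + (1 / 2) ^ l) * (Nat.card Θ : ℝ)) ∧
    ∀ (θ : Θ) (z : Fin t → X → ZMod 2), (∀ j, z j ∈ codeV1 N 𝒢 s1) →
      (fun x => z (h θ x) x) ∈ codeV N 𝒢 s

/-- the code exists with the final parameters (`ℓ = log₂ G`) -/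
def SpecCODE : Prop := ∃ C ℓ0 : ℕ, ∀ ℓ ≥ ℓ0, ∃ κ s k D : ℕ,
  2 ^ (2 * ℓ + 30) ≤ κ ∧ κ ≤ 2 ^ (4 * ℓ + 60) ∧ 6 * ℓ + 100 ≤ s ∧ s ≤ C * ℓ ∧
  2 ^ (4 * ℓ + 70) ≤ k ∧ D ≤ 2 ^ (C * ℓ * (Nat.log 2 ℓ) ^ 2) ∧
  ∃ (X : Type) (_ : AddCommGroup X) (_ : Module (ZMod 2) X) (_ : Fintype X) (_ : DecidableEq X)
    (V V1 : Submodule (ZMod 2) (X → ZMod 2)) (Γ : Type) (g : Γ → X → ZMod 2),
    GoodCode X κ s (2 ^ (2 * ℓ + 20)) k D ((1 / 2) ^ (6 * ℓ + 80)) V V1 Γ g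

/-! ## Part II: analysis -/

/-- translation of a code word -/
def tr {X : Type} [Add X] (x : X) (v : X → ZMod 2) : X → ZMod 2 := fun p => v (p + x)

/-- sections 10-13: every balanced translation invariant cut is expensive -/
def SpecCUT : Prop := ∀ (X : Type) [AddCommGroup X] [Module (ZMod 2) X] [Fintype X]
  [DecidableEq X] (κ s d k D : ℕ) (pc : ℝ) (V V1 : Submodule (ZMod 2) (X → ZMod 2))
  (Γ : Type) (g : Γ → X → ZMod 2), GoodCode X κ s d k D pc V V1 Γ g →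
  ∀ ℓ : ℕ, 10 ≤ ℓ → d = 2 ^ (2 * ℓ + 20) → 2 ^ (2 * ℓ + 30) ≤ κ → 2 ^ (4 * ℓ + 70) ≤ k →
  pc ≤ (1 / 2) ^ (6 * ℓ + 80) →
  ∀ f : (X → ZMod 2) → ℝ, (∀ v ∈ V, f v = 1 ∨ f v = -1) →
    (∀ v ∈ V, ∀ x, f (tr x v) = f v) → |∑ᶠ v : V, f v| ≤ (Nat.card V : ℝ) / 2 →
    2 ^ ℓ * (1 / 2) ^ s * ((Nat.card V : ℝ) * Nat.card Γ) <
      (Nat.card {w : V × Γ // f (w.1 + g w.2) ≠ f w.1} : ℝ)

open Vale.Agent.P318.H867 in
/-- section 14: the semimetric -/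
def SpecSDP : Prop := ∀ (X : Type) [AddCommGroup X] [Module (ZMod 2) X] [Fintype X]
  [DecidableEq X] (κ s d k D : ℕ) (pc : ℝ) (V V1 : Submodule (ZMod 2) (X → ZMod 2))
  (Γ : Type) (g : Γ → X → ZMod 2), GoodCode X κ s d k D pc V V1 Γ g →
  20 ≤ s → κ ≤ 2 ^ s → 100 * s ≤ κ → 4 * κ ≤ k →
  ∀ [Fintype V] [DecidableEq V], ∃ dd : V → V → ℝ, IsNegTypeSemimetric dd ∧
    (∀ u v : V, (∃ x, (v : X → ZMod 2) = tr x u) → dd u v = 0) ∧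
    (∀ u v, dd u v ≤ 2) ∧
    (∑ᶠ w : V × Γ, ∑ u : V, if (u : X → ZMod 2) = w.1 + g w.2 then dd w.1 u else 0) ≤
      1000 * s * (1 / 2) ^ s * ((Nat.card V : ℝ) * Nat.card Γ) ∧
    ((univ.filter fun uv : V × V => dd uv.1 uv.2 < 1).card : ℝ) ≤ (Nat.card V : ℝ) ^ 2 / 8

/-! ## Part III: the theorem -/

open Vale.Agent.P318.H867 in
/-- capacities of the problem -/
def IsCap {n : ℕ} (c : Fin n → Fin n → ℝ) : Prop :=
  (∀ i j, c i j = c j i) ∧ (∀ i j, 0 ≤ c i j) ∧ ∀ i, c i i = 0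

open Vale.Agent.P318.H867 in
/-- final statement (existence form; 308 adds the form with `g(n)` as a supremum) -/
def SpecMAIN : Prop := ∃ c : ℝ, 0 < c ∧ ∃ n₀ : ℕ, ∀ n ≥ n₀, ∃ cap : Fin n → Fin n → ℝ,
  IsCap cap ∧ 0 < glValue cap ∧
  Real.exp (c * Real.log (Real.log n) / (Real.log (Real.log (Real.log n))) ^ 2) * glValue cap ≤
    phi cap

/-- section 15, 16: from the code, the cut bound and the semimetric to the theorem -/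
def SpecTRANSFER : Prop := SpecCODE → SpecCUT → SpecSDP → SpecMAIN

end Vale.Agent.P318.H937
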