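import Vale.Agent.P318.H937.Spec

/-!
# P318, g(n) ≥ (log n)^c: frozen specifications (Props)

Section numbers refer to the text of helper6 (board #9326, branch helper6, H6/PROOF.md).
All condensers have the same output dimension `a` (pad with zeros), so `A = A' = F_2^a`.
-/

open Finset

namespace Vale.Agent.P318.H937

/-- `F_2^n` -/
abbrev Vc (n : ℕ) : Type := Fin n → ZMod 2

/-- the family `E` of linear maps, applied to all entries of a vector (with a label), is lossless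
for sets of size at most `W` -/
def VLoss {q : ℕ} {Y A : Type} [AddCommGroup Y] [Module (ZMod 2) Y] [AddCommGroup A]
    [Module (ZMod 2) A] [DecidableEq A] (E : Fin q → Y →ₗ[ZMod 2] A) (W : ℕ) (e : ℝ) : Prop :=
  ∀ (J L : Type) [Fintype J] [DecidableEq J] [Fintype L] [DecidableEq L],
    Lossless (univ : Finset (Fin q))
      (fun (s : Fin q) (x : (J → Y) × L) => ((fun j => E s (x.1 j)), x.2)) W e

/-- (1.3): every space of dimension at most `d` has a lossless family of `q` linear maps to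
`F_2^a` -/
def HasFam (d a q W : ℕ) (e : ℝ) : Prop :=
  ∀ (Y : Type) [AddCommGroup Y] [Module (ZMod 2) Y] [Fintype Y] [DecidableEq Y],
    Module.finrank (ZMod 2) Y ≤ d → ∃ E : Fin q → Y →ₗ[ZMod 2] Vc a, VLoss E W e

/-- the code theorem (section 3) for the space `Y` -/
def PY (Kc Wp a D N : ℕ) (g : ℝ) (Y : Type) [AddCommGroup Y] [Module (ZMod 2) Y] [Fintype Y]
    [DecidableEq Y] : Prop :=
  ∀ R : Finset (Y →ₗ[ZMod 2] Vc a), ∃ T : Finset (Y →ₗ[ZMod 2] Vc D),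
    T.card ≤ N * (1 + R.card) ∧
    ∀ W : ℕ, (Kc : ℝ) * g * W ≤ Wp → ∀ B : Y → ZMod 2, (∀ τ ∈ T, sz (push τ B) ≤ W) →
      ∃ U : Y → ZMod 2, (sz U : ℝ) ≤ g * W ∧ (∀ τ ∈ T, push τ U = push τ B) ∧
        (∀ ρ ∈ R, push ρ U = push ρ B)

/-- the code theorem P(d; N, g) -/
def PD (Kc Wp a D d N : ℕ) (g : ℝ) : Prop :=
  ∀ (Y : Type) [AddCommGroup Y] [Module (ZMod 2) Y] [Fintype Y] [DecidableEq Y],
    Module.finrank (ZMod 2) Y ≤ d → PY Kc Wp a D N g Y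

/-! ### Section 1: condensers -/

/-- (1.1) with `h = 2^j`, `q = h^2` -/
def SpecGUVh : Prop := ∀ j n m : ℕ, 1 ≤ j → 2 ≤ n → 1 ≤ m →
  ∃ E : Fin (2 ^ (2 * j)) → (Vc (n * (2 * j)) →ₗ[ZMod 2] Vc (m * (2 * j))),
    ∀ U : Finset (Vc (n * (2 * j))), U.card ≤ 2 ^ (j * m) →
      ((2 : ℝ) ^ (2 * j) - n * m * 2 ^ j) * U.card ≤ ∑ y, ((U.image (E y)).card : ℝ)

/-- (1.2), (1.3) -/
def SpecFAM : Prop := ∀ (d w j a : ℕ) (e : ℝ), 1 ≤ j → 1 ≤ w → 2 * (w + j) ≤ a →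
  (2 * (w : ℝ) + 1) * ((d + 2) * (w + 1)) ≤ e * 2 ^ j → HasFam d a (2 ^ (2 * j)) (2 ^ w) e

/-! ### Section 2: gluing -/

/-- Lemma 2 -/
def SpecGLUE2 : Prop := ∀ (SB SC Z Zb Zc Zbc : Type) [Fintype SB] [Fintype SC] [Fintype Z]
  [Fintype Zb] [Fintype Zc] [Fintype Zbc] [Nonempty SB] [Nonempty SC]
  [DecidableEq Z] [DecidableEq Zb] [DecidableEq Zc] [DecidableEq Zbc]
  (be : SB → Z → Zb) (be' : SB → Zc → Zbc) (ga : SC → Z → Zc) (ga' : SC → Zb → Zbc)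
  (e : ℝ) (W Wp : ℕ),
  (∀ b c x, be' b (ga c x) = ga' c (be b x)) → 0 ≤ e → 200 * e ≤ 1 → 5 * W ≤ Wp →
  Lossless univ (fun b (p : Zc × Zc) => (be' b p.1, be' b p.2)) Wp e →
  Lossless univ be' Wp e → Lossless univ ga' Wp e → Lossless univ ga Wp e →
  (∀ (q : SB → Zb) (p : SC → Zc),
    (1 - 12 * e) * (Fintype.card SB * Fintype.card SC) ≤
      ((univ.filter fun bc : SB × SC => ga' bc.2 (q bc.1) = be' bc.1 (p bc.2)).card : ℝ) →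
    ∃ u : Z, 3 * Fintype.card SC ≤ 4 * (univ.filter fun c => ga c u = p c).card) →
  ∀ (Q : SB → Zb → ZMod 2) (P : SC → Zc → ZMod 2) (PP : SC → SC → Zc × Zc → ZMod 2),
    (∀ b, sz (Q b) ≤ W) → (∀ c, sz (P c) ≤ W) → (∀ c c', sz (PP c c') ≤ W) →
    (∀ c c', push Prod.fst (PP c c') = P c) → (∀ c c', push Prod.snd (PP c c') = P c') →
    (∀ b c c', push (Prod.map (be' b) (be' b)) (PP c c') =
      push (fun x => (ga' c x, ga' c' x)) (Q b)) →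
    ∃ U : Z → ZMod 2, (1 - 2 * e) * sz U ≤ W ∧ (∀ c, push (ga c) U = P c) ∧
      (∀ b, push (be b) U = Q b) ∧ ∀ c c', push (fun x => (ga c x, ga c' x)) U = PP c c'

/-- `E` applied to all rows of a matrix -/
def rowL {n a : ℕ} (E : Vc n →ₗ[ZMod 2] Vc a) (J : Type) : (J → Vc n) →ₗ[ZMod 2] (J → Vc a) :=
  E.compLeft J

/-- `E` applied to all columns of a matrix -/
def colL {n a : ℕ} (E : Vc n →ₗ[ZMod 2] Vc a) (k : ℕ) :
    (Fin n → Vc k) →ₗ[ZMod 2] (Fin a → Vc k) where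
  toFun x := fun i l => E (fun j => x j l) i
  map_add' x y := by
    funext i l
    have h : (fun j => (x + y) j l) = (fun j => x j l) + fun j => y j l := rfl
    rw [h, map_add]; rfl
  map_smul' r x := by
    funext i l
    have h : (fun j => (r • x) j l) = r • fun j => x j l := rfl
    rw [h, map_smul]; rfl

/-- tensor gluing (Lemma 2 + (E) for tensors), with a label -/
def SpecTGLUE : Prop := ∀ (n a q W Wp : ℕ) (e : ℝ) (E : Fin q → Vc n →ₗ[ZMod 2] Vc a)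
  (L : Type) [Fintype L] [DecidableEq L],
  VLoss E Wp e → 0 < q → 1 ≤ n → 0 ≤ e → 200 * n * e ≤ 1 → 5 * W ≤ Wp →
  ∀ (Q : Fin q → (Fin n → Vc a) × L → ZMod 2) (P : Fin q → (Fin a → Vc n) × L → ZMod 2)
    (PP : Fin q → Fin q → (Fin a → Vc n) × (Fin a → Vc n) × L → ZMod 2),
    (∀ b, sz (Q b) ≤ W) → (∀ c, sz (P c) ≤ W) → (∀ c c', sz (PP c c') ≤ W) →
    (∀ c c', push (fun x => (x.1, x.2.2)) (PP c c') = P c) →
    (∀ c c', push (fun x => (x.2.1, x.2.2)) (PP c c') = P c') →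
    (∀ b c c', push (fun x => (rowL (E b) (Fin a) x.1, rowL (E b) (Fin a) x.2.1, x.2.2))
        (PP c c') =
      push (fun x => (colL (E c) a x.1, colL (E c') a x.1, x.2)) (Q b)) →
    ∃ U : (Fin n → Vc n) × L → ZMod 2, (1 - 2 * e) * sz U ≤ W ∧
      (∀ c, push (fun x => (colL (E c) n x.1, x.2)) U = P c) ∧
      (∀ b, push (fun x => (rowL (E b) (Fin n) x.1, x.2)) U = Q b) ∧
      ∀ c c', push (fun x => (colL (E c) n x.1, colL (E c') n x.1, x.2)) U = PP c c'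

/-- direct-sum gluing without pairs (helper460) -/
def SpecDS : Prop := ∀ (n W W0 : ℕ) (e : ℝ) (C1 C2 A1 A2 : Type) [Fintype C1] [Fintype C2]
  [Fintype A1] [Fintype A2] [DecidableEq C1] [DecidableEq C2] [DecidableEq A1] [DecidableEq A2]
  (E1 : Fin n → C1 → A1) (E2 : Fin n → C2 → A2),
  0 < n → 0 ≤ e → 200 * e ≤ 1 → 6 * n * W ≤ W0 →
  Lossless univ (fun s (x : C1 × A2) => (E1 s x.1, x.2)) W0 e →
  Lossless univ (fun s (x : A1 × C2) => (x.1, E2 s x.2)) W0 e →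
  Lossless univ (fun s (x : C1 × C2) => (E1 s x.1, x.2)) W0 e →
  Lossless univ (fun s (x : C1 × C2) => (x.1, E2 s x.2)) W0 e →
  ∀ (P : Fin n → C1 × A2 → ZMod 2) (Q : Fin n → A1 × C2 → ZMod 2),
    (∀ z, sz (P z) ≤ W) → (∀ z, sz (Q z) ≤ W) →
    (∀ z z', push (fun x => (E1 z' x.1, x.2)) (P z) = push (fun x => (x.1, E2 z x.2)) (Q z')) →
    ∃ U : C1 × C2 → ZMod 2, (1 - 2 * e) * sz U ≤ W ∧
      (∀ z, push (fun x => (x.1, E2 z x.2)) U = P z) ∧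
      (∀ z, push (fun x => (E1 z x.1, x.2)) U = Q z)

/-! ### Section 3: the code theorem -/

/-- (3.0) -/
def SpecBASE : Prop := ∀ Kc Wp a D : ℕ, PD Kc Wp a D D 1 1

/-- (3.1) -/
def SpecRETR : Prop := ∀ (Kc Wp a D N q : ℕ) (e g : ℝ) (Y Y' : Type)
  [AddCommGroup Y] [Module (ZMod 2) Y] [Fintype Y] [DecidableEq Y]
  [AddCommGroup Y'] [Module (ZMod 2) Y'] [Fintype Y'] [DecidableEq Y']
  (io : Y →ₗ[ZMod 2] Y') (pi : Y' →ₗ[ZMod 2] Y) (F : Fin q → Y' →ₗ[ZMod 2] Vc a),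
  (∀ y, pi (io y) = y) → VLoss F Wp e → 0 < q → 4 * e ≤ 1 → 2 ≤ Kc → 0 ≤ g →
  PY Kc Wp a D N g Y' → PY Kc Wp a D ((1 + 2 * q) * N) g Y

/-- (3.2) direct-sum step -/
def SpecSUM : Prop := ∀ (Kc Wp a D N q c : ℕ) (e g : ℝ), HasFam (2 * c) a q Wp e →
  0 < q → 1 ≤ a → 2 * a ≤ c → 0 ≤ e → 200 * e ≤ 1 → 1 ≤ g → 10 ≤ Kc → 12 * q ≤ Kc →
  PD Kc Wp a D (c + 2 * a) N g → PD Kc Wp a D (2 * c) (100 * q ^ 6 * N) (g / (1 - 2 * e))

/-- (3.3) tensor step -/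
def SpecTEN : Prop := ∀ (Kc Wp a D N q n : ℕ) (e g : ℝ), HasFam (n ^ 2) a q Wp e →
  0 < q → 1 ≤ a → 2 * a + 1 ≤ n → 0 ≤ e → 200 * n * e ≤ 1 → 1 ≤ g → 10 ≤ Kc →
  PD Kc Wp a D (2 * a * n + a) N g →
  PD Kc Wp a D (n ^ 2) (100 * n * q ^ 6 * N) (g / (1 - 2 * e))

/-- (3.4) recursion, with all numbers -/
def SpecREC : Prop := ∃ C w0 : ℕ, ∀ w κ : ℕ, w0 ≤ w → κ ^ 4 ≤ 2 ^ w → ∃ N Kc : ℕ,
  N ≤ (κ + 2) ^ C * 2 ^ (C * (Nat.log 2 w) ^ 2) ∧ Kc ≤ w ^ C ∧ 10 ≤ Kc ∧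
  PD Kc (2 ^ w) (5 * w) (20 * w + 4) κ N 2

/-! ### Section 4: the code -/

/-- Theorem 9' -/
def SpecCORE : Prop := ∀ (κ a0 e' D Kc N q w d M : ℕ) (e : ℝ) (nu : Fin q → Vc κ →ₗ[ZMod 2] Vc a0),
  VLoss nu (2 ^ w) e → 0 < q → 0 ≤ e → 40 * e ≤ 1 → 1 ≤ e' → a0 + e' ≤ D → 10 ≤ Kc → 1 ≤ d →
  PD Kc (2 ^ w) (a0 + e') D κ N 2 → N * (1 + (q + 2 ^ e' * q)) ≤ M → 1 ≤ M →
  2 * Kc * (20 * M * d) ≤ 2 ^ w →
  ∃ (V V1 : Submodule (ZMod 2) (Vc κ → ZMod 2)) (Γ : Type) (g : Γ → Vc κ → ZMod 2),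
    GoodCode (Vc κ) κ D d (2 ^ w) ((M + (q + 2 ^ e' * q)) * 2 ^ D)
      ((κ : ℝ) * (1 / 2) ^ e') V V1 Γ g

/-- the code exists with the final parameters -/
def SpecCODE4 : Prop := ∃ C ℓ0 : ℕ, ∀ ℓ ≥ ℓ0, ∃ κ s k D : ℕ,
  2 ^ (2 * ℓ + 30) ≤ κ ∧ κ ≤ 2 ^ (4 * ℓ + 60) ∧ 6 * ℓ + 100 ≤ s ∧ s ≤ C * ℓ ∧
  2 ^ (4 * ℓ + 70) ≤ k ∧ D ≤ 2 ^ (C * ℓ) ∧
  ∃ (X : Type) (_ : AddCommGroup X) (_ : Module (ZMod 2) X) (_ : Fintype X) (_ : DecidableEq X)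
    (V V1 : Submodule (ZMod 2) (X → ZMod 2)) (Γ : Type) (g : Γ → X → ZMod 2),
    GoodCode X κ s (2 ^ (2 * ℓ + 20)) k D ((1 / 2) ^ (6 * ℓ + 80)) V V1 Γ g

/-- numbers + assembly of section 4 -/
def SpecNUM4 : Prop := SpecFAM → SpecREC → SpecCORE → SpecCODE4

open Vale.Agent.P318.H867 in
/-- final statement (existence form) -/
def SpecMAIN4 : Prop := ∃ c : ℝ, 0 < c ∧ ∃ n₀ : ℕ, ∀ n ≥ n₀, ∃ cap : Fin n → Fin n → ℝ,
  IsCap cap ∧ 0 < glValue cap ∧ Real.log n ^ c * glValue cap ≤ phi cap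

/-- sections 15, 16 -/
def SpecTRANSFER4 : Prop := SpecCODE4 → SpecCUT → SpecSDP → SpecMAIN4

end Vale.Agent.P318.H937
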