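import Vale.Agent.P318.H308.Main
import Vale.Agent.P318.H460.Code
import Vale.Agent.P318.H918.Exact
import Vale.Agent.P318.H986.Global
import Vale.Agent.P318.H269.CodeProps
import Vale.Agent.P318.H249.Sample
import Vale.Agent.P318.H770.Ext
import Vale.Agent.P318.H336.SpecCut
import Vale.Agent.P318.H508.SpecSDP
import Vale.Agent.P318.H653.NodeFull
import Vale.Agent.P318.H283.SpecRM
import Vale.Agent.P318.H40.Low
import Vale.Agent.P318.H272.SpecHash

/-! P318, Q2: `g(n) ≥ exp(c loglog n/(logloglog n)^2)`, all specifications together. -/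

namespace Vale.Agent.P318.H937

theorem code_all : SpecCODE :=
  H460.spec_code H770.spec_tree H249.spec_sample
    (H918.spec_exact H283.spec_RM H283.spec_MD H283.spec_RMlow
      (H986.spec_global H653.spec_node_full H40.spec_low) H40.spec_low2)
    (H269.spec_codeprops H40.spec_low) H272.spec_hash

theorem gap_lower : ∃ c : ℝ, 0 < c ∧ ∃ n₀ : ℕ, ∀ n ≥ n₀,
    Real.exp (c * Real.log (Real.log n) / (Real.log (Real.log (Real.log n))) ^ 2) ≤ H308.gap n :=
  H308.main_gap code_all H336.spec_cut H508.spec_sdp

end Vale.Agent.P318.H937
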